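import Vale.Agent.P017D.Asm
import Vale.Agent.P014T.All
import Vale.Agent.P014W.Ent
import Vale.Agent.P014W.Gb
import Vale.Agent.P014W.Rall
import Vale.Agent.P014W.Hpa
import Vale.Agent.P014W.Nv
import Vale.Agent.P014W.Key
import Vale.Agent.P004T.All
import Vale.Agent.P004F.All
import Vale.Agent.P004R.All
import Vale.Agent.P004C.All

/-! # P017D: the closed form -/

namespace Vale.Agent.P017D

open P014T P014T.Top P014W

theorem main : RES := main_of md_all
  (fun _ _ _ _ _ h nf _ hp => cm_all lgu_all (lg2_of (gb_of rect hpa) key nvx) h nf hp)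
  (fun _ _ _ h => (P004T.dens_all (P004F.conv3 (P004R.anchor_red.or P004C.anchor_irr)) h
    fun _ _ => (Classical.em _).symm).imp fun _ k => ⟨k.1, k.2.1⟩)
  fun A B h _ l ar => (md_all A B h).elim fun N k => k.elim fun G k => k.elim fun a nf =>
    core lgi tws (mt_all Ct.kato_all) Kt.kk_all h nf (lgu_all A B h N G a nf) l ar

end Vale.Agent.P017D
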