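import Vale.Agent.P014U.Tq.Lhu

/-! # P017D: the level of the newform is fifteen -/

set_option autoImplicit false

open WeierstrassCurve UpperHalfPlane

namespace Vale.Agent.P017D

open P014T P014T.Lc P014U.Tq
open P004M.TE (al)

/-- the minimal model -/
def Wi : WeierstrassCurve ℤ := ⟨1, 1, 1, -10, -10⟩

theorem Wi_disc : Wi.Δ = 50625 := by decide

theorem Wi_min : P014.GlobalMinimal (Wq Wi) := by
  refine ⟨⟨Wi, rfl⟩, fun C ⟨W, e⟩ => ?_⟩
  have a : (C • Wq Wi).Δ = (C.u⁻¹ : ℚˣ) ^ 12 * 50625 := by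
    rw [variableChange_Δ, map_Δ, Wi_disc]; rfl
  have b : (C • Wq Wi).Δ = W.Δ := by rw [e]; exact W.map_Δ _
  rw [map_Δ, Wi_disc, a]
  have u0 := (C.u⁻¹).ne_zero
  generalize ((C.u⁻¹ : ℚˣ) : ℚ) = u at a u0 ⊢
  have c : u.num ^ 12 * 50625 = W.Δ * u.den ^ 12 := by
    have : (u.num : ℚ) ^ 12 * 50625 = W.Δ * u.den ^ 12 := by
      rw [← b, a, ← Rat.mul_den_eq_num]; ring
    exact_mod_cast this
  have d : (u.den : ℤ) ^ 12 ∣ 50625 :=
    (u.isCoprime_num_den.symm.pow).dvd_of_dvd_mul_left ⟨W.Δ, by rw [c, mul_comm]⟩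
  have f : u.den = 1 := by
    have l := Int.le_of_dvd (by norm_num) d
    have : u.den < 3 := by
      by_contra! k
      have : (3 : ℤ) ^ 12 ≤ (u.den : ℤ) ^ 12 := by gcongr; exact_mod_cast k
      omega
    have := u.den_pos
    interval_cases u.den
    · rfl
    · exact absurd d (by decide)
  have g : (1 : ℚ) ≤ |u| := by
    rw [← Rat.coe_int_num_of_den_eq_one f]
    exact_mod_cast Int.one_le_abs (Rat.num_ne_zero.2 u0)
  rw [abs_mul, abs_pow]
  simpa using one_le_pow₀ (n := 12) g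

theorem Wi_md : Sm.Md (Wq Wi) (-12987 : ℤ) (-263466 : ℤ) 6 15 3 108 := by
  constructor <;> simp [Wi] <;> norm_num

theorem np3 : np Wi 3 = 4 :=
  Sg.card_nonsplit _ (by decide) (by decide)

theorem np5 : np Wi 5 = 4 :=
  Nat.succ_injective (@Sg.card_split 5 ⟨Nat.prime_five⟩ _ (by decide) (by decide) (by decide))

theorem lev {N : ℕ} {G : ℍ → ℂ} {a : ℕ → ℤ} (rn : P004N.RN N G a)
    (h : ∀ p, p.Prime → Cm (-12987) (-263466) p a) : N = 15 ∧ a 3 = -1 ∧ a 5 = 1 := by
  have c := P004N.H461.pfCf N G a rn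
  have k {p : ℕ} (hp : p.Prime) := al_np (by rw [Wi_disc]; decide) Wi_min Wi_md hp
  have bad {p : ℕ} (hp : p.Prime) (d : (p : ℤ) ∣ 50625) {e : ℤ} (e0 : e ≠ 0) (n : p - e = np Wi p) :
      a p = e ∧ N.factorization p = 1 := by
    obtain ⟨a1, a2⟩ := k hp
    rw [ep, Wi_disc, if_pos d] at a1 a2
    obtain ⟨b1, b2⟩ := (h p hp).resolve_left fun z => by omega
    have q : a p = e := by omega
    refine ⟨q, le_antisymm (by_contra fun l => e0 (q ▸ c.bad2 p hp
      ((hp.pow_dvd_iff_le_factorization rn.pos.ne').2 (by omega))))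
      ((hp.dvd_iff_one_le_factorization rn.pos.ne').1 (by_contra fun l => hp.ne_zero ?_))⟩
    have := c.good p hp l 0
    rw [pow_zero, c.one, zero_add, zero_add, pow_one, b2, a2, b1] at this
    exact_mod_cast (by linear_combination this : (p : ℤ) = 0)
  obtain ⟨a3, f3⟩ := bad Nat.prime_three (by decide) (e := -1) (by decide) (by rw [np3]; rfl)
  obtain ⟨a5, f5⟩ := bad Nat.prime_five (by decide) (e := 1) (by decide) (by rw [np5]; rfl)
  refine ⟨Nat.eq_of_factorization_eq rn.pos.ne' (by decide) fun p => ?_, a3, a5⟩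
  rw [show 15 = 3 * 5 from rfl, Nat.factorization_mul (by decide) (by decide),
    Nat.prime_three.factorization, Nat.prime_five.factorization]
  by_cases h3 : p = 3
  · simp [h3, f3]
  by_cases h5 : p = 5
  · simp [h5, f5]
  rw [Finsupp.add_apply, Finsupp.single_eq_of_ne h3, Finsupp.single_eq_of_ne h5]
  refine (Nat.factorization_eq_zero_iff _ _).2 (or_iff_not_imp_left.2 fun hp => .inl fun l => ?_)
  replace hp := not_not.1 hp
  obtain ⟨a1, a2⟩ := k hp
  have d : ¬ (p : ℤ) ∣ 50625 := fun d => by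
    rcases (Nat.Prime.dvd_mul hp).1 (show p ∣ 3 ^ 4 * 5 ^ 4 by exact_mod_cast d) with e | e
    · exact h3 ((Nat.prime_dvd_prime_iff_eq hp Nat.prime_three).1 (hp.dvd_of_dvd_pow e))
    · exact h5 ((Nat.prime_dvd_prime_iff_eq hp Nat.prime_five).1 (hp.dvd_of_dvd_pow e))
  rw [ep, Wi_disc, if_neg d] at a2
  have p0 : (p : ℤ) ≠ 0 := Nat.cast_ne_zero.2 hp.ne_zero
  obtain ⟨b1, b2⟩ := (h p hp).resolve_left fun z => p0 (by rw [z.1, z.2] at a2; linear_combination a2)
  have := c.bad p hp l 1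
  rw [pow_one] at this
  exact p0 (by linear_combination a2 + b2 - this - (a p + al (-12987) (-263466) p) * b1)

end Vale.Agent.P017D
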