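import Vale.Agent.P017.H185.Main
import Vale.Agent.P014T.Ht.Vc

/-! # P017D: points over the quadratic field and on the twist -/

set_option autoImplicit false

open WeierstrassCurve WeierstrassCurve.Affine

namespace Vale.Agent.P017D

open P017.H185 P014T.Vc

/-- the twist of the short model -/
def Tw (D : ℤ) : WeierstrassCurve ℚ := ⟨0, 0, 0, -12987 * D ^ 2, -263466 * D ^ 3⟩

theorem fin_Q : Finite X015.toAffine.Point :=
  have := finite_EQ'
  .of_injective _ (vm_inj (f := RingHom.id ℚ) (V := X015) (W := ED (-1)) (u := 2) (r := -12)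
    (s := 1) (t := 4) (by constructor <;> simp [X015, ED] <;> norm_num))

variable {K : Type} [Field K] [NumberField K] {d : ℕ} (q : QF K d) {k : ℤ}

include q in
theorem fin_K (k0 : k ≠ 0) (h : Finite (Tw (-d * k ^ 2)).toAffine.Point) :
    Finite (X015.baseChange K).toAffine.Point :=
  finite_X015 K (finite_EK q finite_EQ' (.of_injective _ (vm_inj (f := RingHom.id ℚ) (V := ED d)
    (W := Tw (-d * k ^ 2)) (u := 3 * k) (r := -123 * d * k ^ 2) (s := 0) (t := 0)
    (by constructor <;> simp [Tw, ED, k0] <;> ring))))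

theorem rat_of_fix {z : K} (h : q.σ z = z) : ∃ r : ℚ, z = r := by
  have e := q.eq_re_im z
  have := (q.uniq (u := 0) (v := 2 * q.im z) (by
    push_cast
    linear_combination q.σ_apply z - h - e)).2
  exact ⟨q.re z, e.trans (by rw [show q.im z = 0 by linarith]; simp)⟩

theorem th_ne : q.θ ≠ 0 := fun e => by
  have := (q.uniq (u := 0) (v := 1) (by simp [e])).2
  simp at this

theorem ch_tw (k0 : k ≠ 0) : Ch ((Tw (-d * k ^ 2)).map (algebraMap ℚ K)) (X015.baseChange K)
    (6 * k * q.θ)⁻¹ (-5 / 12) (-1 / 2) (-7 / 24) := by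
  have := th_ne q
  have : (k : K) ≠ 0 := Int.cast_ne_zero.2 k0
  have e : (d : K) = -q.θ ^ 2 := by rw [q.hθ, neg_neg]
  constructor <;> simp [Tw, X015, WeierstrassCurve.baseChange, *] <;> field_simp <;> norm_num

theorem ch_s : Ch ((X015.baseChange K).map (q.σ : K →+* K)) (X015.baseChange K) 1 0 0 0 := by
  constructor <;> simp [X015, WeierstrassCurve.baseChange, map_ofNat]

variable [DecidableEq K]

include q in
theorem mul_mem (k0 : k ≠ 0) : ∃ n : ℤ, n ≠ 0 ∧ ∀ P : (X015.baseChange K).toAffine.Point,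
    n • P ∈ (vm _ (ch_tw q k0)).range := by
  have := fin_Q
  have t0 := th_ne q
  have k1 : (k : K) ≠ 0 := Int.cast_ne_zero.2 k0
  let s := vm _ (ch_s q)
  have se {x y : K} (n : (X015.baseChange K).toAffine.Nonsingular x y) :
      ∃ n', s (.some x y n) = .some (q.σ x) (q.σ y) n' := by
    have e := vm_some (ch_s q) n
    simp only [one_pow, one_mul, add_zero, mul_zero, zero_mul] at e
    exact ⟨_, e⟩
  have ss (P) : s (s P) = P := by
    rcases P with _ | ⟨x, y, n⟩
    · rfl
    · obtain ⟨n', e⟩ := se n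
      obtain ⟨_, e'⟩ := se n'
      rw [e, e']
      congr 1 <;> exact q.σσ _
  have a (P) (h : s P = P) : (Nat.card X015.toAffine.Point : ℤ) • P = 0 := by
    rcases P with _ | ⟨x, y, n⟩
    · exact smul_zero _
    · obtain ⟨_, e⟩ := se n
      obtain ⟨e1, e2⟩ := Point.some.inj (e.symm.trans h)
      obtain ⟨x, rfl⟩ := rat_of_fix q e1
      obtain ⟨y, rfl⟩ := rat_of_fix q e2
      obtain ⟨_, e⟩ := vm_ex (f := algebraMap ℚ K) (V := X015) (W := X015.baseChange K) (Ch.refl _) n
        (x := x) (y := y) (by simp) (by simp)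
      rw [← e, ← map_zsmul, natCast_zsmul, card_nsmul_eq_zero', map_zero]
  have b (P) (h : s P = -P) : P ∈ (vm _ (ch_tw q k0)).range := by
    rcases P with _ | ⟨x, y, n⟩
    · exact zero_mem _
    · obtain ⟨_, e⟩ := se n
      obtain ⟨e1, e2⟩ := Point.some.inj (e.symm.trans h)
      obtain ⟨x, rfl⟩ := rat_of_fix q e1
      replace e2 : q.σ y = -y - x - 1 := by simpa [negY, X015, WeierstrassCurve.baseChange] using e2
      obtain ⟨z, e3⟩ := rat_of_fix q (z := (6 * k * q.θ) ^ 3 * (y + x / 2 + 1 / 2)) (by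
        simp only [map_mul, map_pow, map_add, map_div₀, map_ofNat, map_intCast, q.hσ, e2,
          map_ratCast, map_one]
        ring)
      refine ⟨_, (vm_ex (ch_tw q k0) n (x := -d * k ^ 2 * (36 * x + 15)) (y := z) ?_ ?_).choose_spec⟩
      · simp only [eq_ratCast]
        push_cast
        rw [← q.hθ]
        field_simp
        ring
      · simp only [eq_ratCast]
        push_cast
        rw [← q.hθ, ← e3]
        field_simp
        ring
  refine ⟨Nat.card X015.toAffine.Point * 2, mul_ne_zero (Nat.cast_ne_zero.2 Nat.card_pos.ne')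
    two_ne_zero, fun P => ?_⟩
  rw [mul_smul, show (2 : ℤ) • P = P + s P + (P - s P) by module, smul_add,
    a _ (by rw [map_add, ss, add_comm]), zero_add]
  exact zsmul_mem (b _ (by rw [map_sub, ss, neg_sub])) _

include q in
/-- the rank over `K` is the rank of the twist -/
theorem rank_K (k0 : k ≠ 0) : Module.finrank ℤ (X015.baseChange K).toAffine.Point =
    Module.finrank ℤ (Tw (-d * k ^ 2)).toAffine.Point := by
  obtain ⟨n, n0, h⟩ := mul_mem q k0
  let f := (vm _ (ch_tw q k0)).toIntLinearMap
  have := Submodule.rank_quotient_add_rank (LinearMap.range f)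
  rw [rank_range_of_injective f (vm_inj (ch_tw q k0)), rank_eq_zero_iff.2 fun x => ⟨n, n0, by
    obtain ⟨P, rfl⟩ := Submodule.mkQ_surjective _ x
    rw [← map_smul]
    exact (Submodule.Quotient.mk_eq_zero _).2 (h P)⟩, zero_add] at this
  rw [Module.finrank, Module.finrank, this]

end Vale.Agent.P017D
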