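import Vale.Agent.P017D.Sq
import Vale.Agent.P004N.H3.Fin
import Vale.Agent.P004X.P004G.H575.Ent
import Vale.Agent.P004N.H461.Pure
import Vale.Agent.P004N.H880.FE2
import Vale.Agent.P004N.H65.Att
import Vale.Agent.P004Z.Ar.Unf

/-! # P017D: the parity of the analytic rank of the twists -/

set_option autoImplicit false

open UpperHalfPlane

namespace Vale.Agent.P017D

open P004N P004N.T8 P004H.H871

theorem kr_neg {D : ℤ} (hD : Fd D) (n : D < 0) : kr D (-1) = -1 := by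
  have key : ∀ d : ℤ, d % 2 = 1 → jacobiSym (-1) d.natAbs = if d.natAbs % 4 = 1 then 1 else -1 := by
    intro d hd
    rw [jacobiSym.at_neg_one (odd_natAbs hd)]
    split_ifs with h
    · exact ZMod.χ₄_nat_one_mod_four h
    · exact ZMod.χ₄_nat_three_mod_four (by omega)
  rcases hD.cases with ⟨h, -⟩ | ⟨d, rfl, h, -⟩ | ⟨d, rfl, h, -⟩ | ⟨d, rfl, h, -⟩
  · rw [kr_one_mod h]
    show jacobiSym (-1) D.natAbs = _
    rw [key D (by omega)]
    split_ifs <;> omega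
  · rw [kr_four h]
    show ZMod.χ₄ (((-1 : ℤ)) : ZMod 4) * jacobiSym (-1) d.natAbs = _
    rw [key d (by omega), show ZMod.χ₄ (((-1 : ℤ)) : ZMod 4) = -1 by decide]
    split_ifs <;> omega
  · rw [kr_eight h]
    show ZMod.χ₈ (((-1 : ℤ)) : ZMod 8) * jacobiSym (-1) d.natAbs = _
    rw [key d (by omega), show ZMod.χ₈ (((-1 : ℤ)) : ZMod 8) = 1 by decide]
    split_ifs <;> omega
  · rw [kr_eight' h]
    show ZMod.χ₈' (((-1 : ℤ)) : ZMod 8) * jacobiSym (-1) d.natAbs = _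
    rw [key d (by omega), show ZMod.χ₈' (((-1 : ℤ)) : ZMod 8) = -1 by decide]
    split_ifs <;> omega

theorem kr3 {D : ℤ} (hD : Fd D) :
    kr D 3 = if D % 3 = 0 then 0 else if D % 3 = 1 then 1 else -1 := by
  rw [show (3 : ℤ) = (3 : ℕ) from rfl, kr_odd hD (by decide), jacobiSym.mod_left]
  rcases (by omega : D % 3 = 0 ∨ D % 3 = 1 ∨ D % 3 = 2) with h | h | h <;>
    simp only [Nat.cast_ofNat, h] <;> norm_num

theorem kr5 {D : ℤ} (hD : Fd D) :
    kr D 5 = if D % 5 = 0 then 0 else if D % 5 = 1 ∨ D % 5 = 4 then 1 else -1 := by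
  rw [show (5 : ℤ) = (5 : ℕ) from rfl, kr_odd hD (by decide), jacobiSym.mod_left]
  rcases (by omega : D % 5 = 0 ∨ D % 5 = 1 ∨ D % 5 = 2 ∨ D % 5 = 3 ∨ D % 5 = 4) with
    h | h | h | h | h <;> simp only [Nat.cast_ofNat, h] <;> norm_num

variable {G : ℍ → ℂ} {a : ℕ → ℤ} {D : ℤ}

/-- the functional equation of the twist, with its sign -/
theorem fe (rn : RN 15 G a) (h3 : a 3 = -1) (h5 : a 5 = 1) (hD : Fd D) (n : D < 0) :
    ∃ q κ, FEr (fun k => (a k : ℝ) * kr D k) q κ ∧ (κ = 1 ↔ Sg D) := by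
  obtain ⟨ε, nf⟩ := P004Z.Ar.nf_of_rn rn
  obtain ⟨M, g, b, ε', nf', -, e, al⟩ :=
    pfNewP1 15 G a ⟨rn.pos, rn.s2, rn.qe, rn.one, rn.te⟩
  obtain ⟨rfl, e1, e2, -⟩ := H65.smo nf' nf (S := 15) (by decide) fun p hp k =>
    e p ((Nat.Prime.coprime_iff_not_dvd hp).2 k)
  obtain rfl : g = G := funext e1
  have a3 := al 3 Nat.prime_three (by decide) (by decide)
  have a5 := al 5 Nat.prime_five (by decide) (by decide)
  rw [e2, h3] at a3
  rw [e2, h5] at a5
  have k (Q : ℤ) : kr D (-Q) = -kr D Q := by rw [← neg_one_mul Q, kr_mul hD, kr_neg hD n, neg_one_mul]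
  have c3 (h : D % 3 ≠ 0) : IsCoprime ((3 : ℕ) : ℤ) D :=
    (Nat.prime_iff_prime_int.1 Nat.prime_three).irreducible.coprime_iff_not_dvd.2 (by omega)
  have c5 (h : D % 5 ≠ 0) : IsCoprime ((5 : ℕ) : ℤ) D :=
    (Nat.prime_iff_prime_int.1 Nat.prime_five).irreducible.coprime_iff_not_dvd.2 (by omega)
  have k3 := kr3 hD
  have k5 := kr5 hD
  unfold Sg
  by_cases d3 : D % 3 = 0 <;> by_cases d5 : D % 5 = 0
  · refine ⟨_, _, H880.fe_pure nf.qe (H461.alw_one rn.s2) (g := 15) rfl one_pos (.inl rfl) hD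
      (by simpa using isCoprime_one_left) (by omega), ?_⟩
    rw [k, Nat.cast_one, kr_one hD]
    simp [d3, d5]
  · refine ⟨_, _, H880.fe_pure nf.qe a5 (g := 3) rfl (by decide) (.inr (by simp)) hD (c5 d5)
      (by omega), ?_⟩
    rw [k, Nat.cast_ofNat, k5, if_neg d5]
    split_ifs with h <;> simp [h, d3] <;> norm_num
  · refine ⟨_, _, H880.fe_pure nf.qe a3 (g := 5) rfl (by decide) (.inl (by simp)) hD (c3 d3)
      (by omega), ?_⟩
    rw [k, Nat.cast_ofNat, k3, if_neg d3]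
    split_ifs with h
    · simp [h, d5]
    · simp [show D % 3 = 2 by omega, d5]
      norm_num
  · refine ⟨_, _, H880.fe_pure nf.qe (H461.comp (Q1 := 3) (Q2 := 5) (R := 1) (by decide) (by decide)
      (by decide) (by decide) rn.s2 a3 a5) (g := 1) rfl (by decide) (.inr (by simp)) hD
      (by exact_mod_cast (c3 d3).mul_left (c5 d5)) (by simp), ?_⟩
    rw [k, Nat.cast_mul, kr_mul hD, Nat.cast_ofNat, Nat.cast_ofNat, k3, k5, if_neg d3, if_neg d5]
    split_ifs with h h' h'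
    · simp [h, h']
      norm_num
    · simp [h, h']
    · simp [show D % 3 = 2 by omega, h']
    · simp [show D % 3 = 2 by omega, h']
      norm_num

/-- **the parity** -/
theorem par (rn : RN 15 G a) (h3 : a 3 = -1) (h5 : a 5 = 1) {r : ℤ → ℕ} (c : Cont a r) (hD : Fd D)
    (n : D < 0) : Even (r D) ↔ Sg D := by
  obtain ⟨q, κ, f, s⟩ := fe rn h3 h5 hD n
  obtain ⟨ε, nf⟩ := P004Z.Ar.nf_of_rn rn
  have ef : EF 15 G a := ⟨rn.pos, rn.s2, rn.qe, rn.one, rn.te⟩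
  have l := nf.hr.ldr (fun _ => nf.lt) hD
  have b (p : ℕ) (hp : p.Prime) : |(a p : ℝ) * kr D p| ≤ p + 1 - 1 := by
    have : |a p| < p + 1 := by exact_mod_cast nf.lt hp
    have : |(a p : ℝ)| ≤ p := by exact_mod_cast Int.lt_add_one_iff.1 this
    rw [abs_mul, add_sub_cancel_right]
    exact (mul_le_of_le_one_right (abs_nonneg _) (kr_abs_le hD _)).trans this
  obtain ⟨L, hL⟩ := stEnt_of P004G.pfLent 1 _ _ _ ⟨one_pos, l, b⟩ f
  have B0 : 15 * D.natAbs ≠ 0 := by omega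
  obtain ⟨L1, h1, o1⟩ := remove_all l (H503.Sum.sm_of_ldr l) B0
    (fun p hp _ => (b p hp).trans_lt (by linarith)) hL
  obtain ⟨M, g, b', ε', t, -⟩ := exists_isTw ef hD
  obtain ⟨L', h', -, -, o'⟩ := c D hD M g b' ε' t
  obtain ⟨L2, h2, o2⟩ := t.order ef hD h' B0 dvd_rfl
  obtain rfl := isLr_unique h1 h2
  rw [← s, stPari_of P004G.pfLparity 1 _ _ _ L ⟨one_pos, l, b⟩ f hL, analyticOrderNatAt, ← o1, o2, o',
    ENat.toNat_coe]

end Vale.Agent.P017D
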