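import Vale.Agent.P017D.Den
import Vale.Agent.P017D.Pts
import Vale.Agent.P017D.Root
import Vale.Agent.P017D.Lev
import Vale.Agent.P014T.Ht.Can
import Vale.Agent.P014T.St
import Vale.Agent.P004N.H169.Ell

/-! # P017D: assembly -/

set_option autoImplicit false

open scoped Classical

namespace Vale.Agent.P017D

open P014T P014T.Top P004N P004N.T8 P004H.H871

/-- the text of the hand-in -/
def RES : Prop := (∀ X, (Box X).Finite) ∧ Density (fun K => Finite (Pts K.F)) (25 / 48) ∧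
  Density (fun K => (Inert3 K.F ↔ Split5 K.F) ∧ Finite (Pts K.F)) (25 / 48) ∧
  Density (fun K => ¬ (Inert3 K.F ↔ Split5 K.F) ∧ rk K.F = 1) (23 / 48)

theorem ell_sI {A B : ℤ} (h : El A B) : (Lc.Wq (sI A B)).IsElliptic := by
  refine ⟨?_⟩
  have e : (sI A B).Δ = -16 * (4 * A ^ 3 + 27 * B ^ 2) := by
    simp [sI, WeierstrassCurve.Δ, WeierstrassCurve.b₂, WeierstrassCurve.b₄, WeierstrassCurve.b₆,
      WeierstrassCurve.b₈]
    ring
  have : (sI A B).Δ ≠ 0 := e ▸ mul_ne_zero (by norm_num) h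
  rw [WeierstrassCurve.map_Δ]
  simpa using this

theorem rk_zero {F : Type} [Field F] [CharZero F] (f : Finite (Pts F)) : rk F = 0 := by
  rw [rk, Module.finrank, (rank_eq_zero_iff (R := ℤ)).2 fun x => ⟨Nat.card (Pts F),
    Nat.cast_ne_zero.2 Nat.card_pos.ne', by rw [natCast_zsmul, card_nsmul_eq_zero']⟩]
  simp

theorem tw_eq (D : ℤ) : Lc.Wq (sI (-12987 * D ^ 2) (-263466 * D ^ 3)) = Tw D := by
  ext <;> simp [sI, Tw]

theorem main_of (md : MODN)
    (cm : ∀ A B N G a, El A B → Nf A B N G a → ∀ p, p.Prime → P014U.Tq.Cm A B p a)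
    (dn : ∀ N f a, EF N f a → ∃ r, Cont a r ∧ Dens r)
    (co : ∀ A B, El A B → ∀ r ≤ 1, Ar A B r → Di A B r 0) : RES := by
  have h : El (-12987) (-263466) := by decide
  obtain ⟨N, G, a, nf⟩ := md _ _ h
  obtain ⟨rfl, h3, h5⟩ := lev nf.rn (cm _ _ _ _ _ h nf)
  have ef : EF 15 G a := ⟨nf.rn.pos, nf.rn.s2, nf.rn.qe, nf.rn.one, nf.rn.te⟩
  obtain ⟨r, c, d⟩ := dn _ _ _ ef
  have att : Att (-12987) (-263466) a :=
    ⟨∏ p ∈ nf.fin.toFinset, p, Finset.prod_ne_zero_iff.2 fun p hp =>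
      (nf.fin.mem_toFinset.1 hp).1.ne_zero, fun p hp k => by_contra fun e =>
        k (Finset.dvd_prod_of_mem _ (nf.fin.mem_toFinset.2 ⟨hp, e⟩))⟩
  have rt {D : ℤ} (hD : Fd D) (l : r D ≤ 1) : Module.finrank ℤ (Tw D).toAffine.Point = r D ∧
      (r D = 0 → Finite (Tw D).toAffine.Point) := by
    obtain ⟨M, g, b, ε, t, -⟩ := exists_isTw ef hD
    obtain ⟨L, hL, -, -, o⟩ := c D hD M g b ε t
    obtain ⟨L', e, o'⟩ := ell_isEll ef hD t hL h att
    have h' := h.tw hD.ne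
    obtain ⟨S, -, -, Q, -, -, -, b, -⟩ := co _ _ h' _ l ⟨L', by
      rw [tw_eq]; convert e; simp [Tw, tw], o'.trans o⟩
    have := ell_sI h'
    have := Sm.finite (Lc.Wq (sI (-12987 * D ^ 2) (-263466 * D ^ 3)))
    rw [← tw_eq]
    refine ⟨Cn.basis_rank b, fun z => ?_⟩
    generalize r D = k at *
    subst z
    have := Module.Finite.iff_addGroup_fg.1 this
    exact AddCommGroup.finite_of_fg_isAddTorsion _ (Cn.basis_zero.1 b)
  have gd (K : IQ) (l : ¬ 2 ≤ r K.disc) : ((Inert3 K.F ↔ Split5 K.F) → Finite (Pts K.F)) ∧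
      (¬ (Inert3 K.F ↔ Split5 K.F) → rk K.F = 1) := by
    obtain ⟨-, n, -, f⟩ := mem_Ng.1 (mem_iff.2 ⟨K, (Int.natCast_natAbs _).ge, rfl⟩)
    obtain ⟨a1, a2⟩ := rt f (by omega)
    rw [sg_iff, ← par nf.rn h3 h5 c f n, Nat.even_iff]
    have := K.nf
    obtain ⟨d, ⟨q⟩⟩ := K.ex
    obtain ⟨k, k0, e⟩ : ∃ k : ℤ, k ≠ 0 ∧ K.disc = -d * k ^ 2 := (disc_eq q).elim
      (fun e => ⟨1, one_ne_zero, e.2⟩) fun e => ⟨2, two_ne_zero, e.2⟩
    refine ⟨fun z => fin_K q k0 (e ▸ a2 (by omega)), fun z => (@rank_K _ _ _ _ q _ (Classical.decEq _) k0).trans ?_⟩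
    rw [← e, a1]
    omega
  have b := den_bad d
  refine ⟨box_fin, den_sg.of b fun K l => ⟨fun f => by_contra fun n => ?_, (gd K l).1⟩,
    den_sg.of b fun K l => and_iff_left_of_imp (gd K l).1, ?_⟩
  · have := (gd K l).2 n
    rw [rk_zero f] at this
    simp at this
  · rw [show (23 / 48 : ℝ) = 1 - 25 / 48 by norm_num]
    exact den_sg.not.of b fun K l => and_iff_left_of_imp (gd K l).2

end Vale.Agent.P017D
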