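import Vale.Agent.P017.H185.Red

/-! # P017D: imaginary quadratic fields ordered by the discriminant -/

set_option autoImplicit false

open NumberField
open scoped Classical

namespace Vale.Agent.P017D

/-- the imaginary quadratic fields, as subfields of `ℂ` -/
def IQ : Type :=
  {K : IntermediateField ℚ ℂ // Algebra.IsQuadraticExtension ℚ K ∧ IsTotallyComplex K}

/-- the underlying subfield of `ℂ` -/
abbrev IQ.F (K : IQ) : IntermediateField ℚ ℂ := K.1

theorem IQ.nf (K : IQ) : NumberField K.F :=
  have := K.2.1
  ⟨⟩

/-- the discriminant of the field -/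
noncomputable def IQ.disc (K : IQ) : ℤ := @discr K.F _ K.nf

/-- the fields of discriminant at most `X` in absolute value -/
def Box (X : ℕ) : Set IQ := {K | |K.disc| ≤ X}

/-- the proportion of the fields in `Box X` with the property `P` -/
noncomputable def prop (P : IQ → Prop) (X : ℕ) : ℝ :=
  ({K ∈ Box X | P K}.ncard : ℝ) / ((Box X).ncard : ℝ)

/-- the proportion of the fields with the property `P` tends to `c` -/
def Density (P : IQ → Prop) (c : ℝ) : Prop := Filter.Tendsto (prop P) Filter.atTop (nhds c)

/-- `3` is inert in `F` -/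
def Inert3 (F : Type) [Field F] : Prop := (Ideal.span {(3 : 𝓞 F)}).IsPrime

/-- `5` splits in `F` -/
def Split5 (F : Type) [Field F] : Prop :=
  ∃ P Q : Ideal (𝓞 F), P.IsPrime ∧ Q.IsPrime ∧ 5 ∈ P ∧ 5 ∈ Q ∧ P ≠ Q

/-- the points of `X₀(15)` over `F` -/
abbrev Pts (F : Type) [Field F] [CharZero F] : Type := (P017.H185.X015.baseChange F).toAffine.Point

/-- the rank of the group of points of `X₀(15)` over `F` -/
noncomputable def rk (F : Type) [Field F] [CharZero F] : ℕ := Module.finrank ℤ (Pts F)

end Vale.Agent.P017D
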