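import Vale.Agent.P017D.Fld

/-! # P017D: densities -/

set_option autoImplicit false

open Filter Topology

namespace Vale.Agent.P017D

open P004 (Fam)

variable {P Q B : IQ → Prop} {l : ℝ}

theorem fin_sep (P : IQ → Prop) (X : ℕ) : {K ∈ Box X | P K}.Finite := (box_fin X).sep _

theorem prop_le (h : ∀ K, ¬ B K → P K → Q K) (X : ℕ) : prop P X ≤ prop Q X + prop B X := by
  unfold prop
  rw [← add_div, ← Nat.cast_add]
  gcongr
  exact (Set.ncard_le_ncard (fun K k => (em (B K)).elim (fun b => .inr ⟨k.1, b⟩)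
    fun b => .inl ⟨k.1, h K b k.2⟩) ((fin_sep Q X).union (fin_sep B X))).trans
      (Set.ncard_union_le _ _)

theorem Density.of (q : Density Q l) (b : Density B 0) (h : ∀ K, ¬ B K → (P K ↔ Q K)) :
    Density P l :=
  tendsto_of_tendsto_of_tendsto_of_le_of_le (by simpa using q.sub b) (by simpa using q.add b)
    (fun X => sub_le_iff_le_add.2 (prop_le (fun K k => (h K k).2) X))
    (prop_le fun K k => (h K k).1)

theorem Density.not (p : Density P l) : Density (fun K => ¬ P K) (1 - l) := by
  refine (p.const_sub 1).congr' ?_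
  filter_upwards [eventually_ge_atTop 3] with X hX
  have : ((Box X).ncard : ℝ) ≠ 0 := by
    rw [box_card]
    exact Nat.cast_ne_zero.2 (Finset.card_ne_zero.2 ⟨-3, mem_Ng.2 ⟨by omega, by decide, by decide,
      .inl ⟨rfl, P004.H628.neg_squarefree.2 Int.prime_three.squarefree⟩⟩⟩)
  unfold prop
  rw [eq_div_iff this, sub_mul, div_mul_cancel₀ _ this, one_mul, sub_eq_iff_eq_add, ← Nat.cast_add,
    ← Set.ncard_union_eq (Set.disjoint_left.2 fun K a b => a.2 b.2) (fin_sep (fun K => ¬ P K) X)
      (fin_sep P X)]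
  congr 2
  ext K
  by_cases P K <;> simp [*]

theorem prop_eq (S : ℤ → Prop) [DecidablePred S] (X : ℕ) :
    prop (fun K => S K.disc) X = (((Ng X).filter S).card : ℝ) / (Ng X).card := by
  classical
  unfold prop
  rw [card_eq, box_card]
  congr 3
  ext D
  simp only [Finset.mem_filter]
  refine and_congr_right fun k => ⟨fun ⟨K, a, b⟩ => a ▸ b, fun s => ?_⟩
  obtain ⟨K, -, rfl⟩ := mem_iff.1 k
  exact ⟨K, rfl, s⟩

theorem den_sg : Density (fun K => Inert3 K.F ↔ Split5 K.F) (25 / 48) := by
  simp only [sg_iff]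
  exact sg_den.congr fun X => (prop_eq Sg X).symm

open scoped Classical in
theorem den_bad {r : ℤ → ℕ} (h : ∀ j : ℕ, j ≤ 1 → Tendsto (fun X : ℕ =>
    (((Fam X).filter (fun D => r D = j)).card : ℝ) / (Fam X).card) atTop (𝓝 (1 / 2))) :
    Density (fun K => 2 ≤ r K.disc) 0 := by
  have a := (((h 0 zero_le_one).add (h 1 le_rfl)).const_sub 1)
  have b := to_ng (u := fun X => ((Fam X).filter fun D => 2 ≤ r D).card) (a.congr' (by
    filter_upwards [fam_ne] with X k
    have e : (Fam X).card = ((Fam X).filter fun D => r D = 0).card +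
        ((Fam X).filter fun D => r D = 1).card + ((Fam X).filter fun D => 2 ≤ r D).card := by
      simp only [Finset.card_filter, ← Finset.sum_add_distrib]
      rw [Finset.card_eq_sum_ones]
      exact Finset.sum_congr rfl fun D _ => by split_ifs <;> omega
    rw [eq_div_iff k, sub_mul, add_mul, div_mul_cancel₀ _ k, div_mul_cancel₀ _ k, one_mul]
    nth_rewrite 1 [e]
    push_cast
    ring))
  rw [add_halves, sub_self, mul_zero] at b
  refine squeeze_zero (fun X => by unfold prop; positivity) (fun X => ?_) b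
  rw [prop_eq fun D => 2 ≤ r D]
  gcongr
  exact Finset.filter_subset _ _

end Vale.Agent.P017D
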