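import Vale.Agent.P004.H628.QW3
import Vale.Agent.P004.L3

/-! # P017D: negative fundamental discriminants in residue classes -/

set_option autoImplicit false

open Finset Filter Topology
open scoped ArithmeticFunction.Moebius

namespace Vale.Agent.P017D

open P004 (Fam IsFund)

variable {q : ℕ} {C : ℤ}

theorem per_bd (hq : 0 < q) {ψ : ℕ → ℤ} (hp : ∀ n, ψ (q + n) = ψ n)
    (h0 : ∑ k ∈ range q, ψ k = 0) (hC : ∀ n, |ψ n| ≤ C) (n : ℕ) :
    |∑ k ∈ range n, ψ k| ≤ q * C := by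
  have c0 : 0 ≤ C := (abs_nonneg _).trans (hC 0)
  induction n using Nat.strong_induction_on with
  | _ n ih =>
  rcases lt_or_ge n q with h | h
  · refine (abs_sum_le_sum_abs _ _).trans ((sum_le_sum fun k _ => hC k).trans ?_)
    rw [sum_const, card_range, nsmul_eq_mul]
    gcongr
  · obtain ⟨m, rfl⟩ := Nat.exists_eq_add_of_le h
    rw [sum_range_add, h0, zero_add, sum_congr rfl fun k _ => hp k]
    exact ih m (by omega)

theorem sum_zmod [NeZero q] (ψ : ZMod q → ℤ) : ∑ k ∈ range q, ψ k = ∑ x, ψ x :=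
  sum_nbij' (fun k => (k : ZMod q)) ZMod.val (fun _ _ => mem_univ _)
    (fun x _ => mem_range.2 x.val_lt) (fun _ h => ZMod.val_cast_of_lt (mem_range.1 h))
    (fun x _ => ZMod.natCast_zmod_val x) fun _ _ => rfl

/-- periodic functions of mean zero on the squarefree numbers -/
theorem sqf [NeZero q] (ψ : ZMod q → ℤ) (h0 : ∑ k ∈ range q, ψ k = 0) (hC : ∀ x, |ψ x| ≤ C)
    (hz : ∀ d m : ℕ, ¬ d.Coprime q → ψ (d ^ 2 * m : ℕ) = 0) (z : ψ 0 = 0) (Y : ℕ) :
    |∑ m ∈ Icc 1 Y, if Squarefree m then ψ m else 0| ≤ q * C * (Nat.sqrt Y : ℤ) := by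
  have c0 : 0 ≤ C := (abs_nonneg _).trans (hC 0)
  have h1 : ∀ m ∈ Icc 1 Y, (if Squarefree m then ψ m else 0) =
      ∑ d ∈ Icc 1 (Nat.sqrt Y), (μ d : ℤ) * (if d ^ 2 ∣ m then ψ m else 0) := by
    intro m hm
    rw [mem_Icc] at hm
    rw [show (if Squarefree m then ψ m else 0) = (if Squarefree m then 1 else 0) * ψ m by
      split_ifs <;> simp, ← P004.H628.sum_mu_sq hm.1 hm.2, sum_mul]
    exact sum_congr rfl fun d _ => by split_ifs <;> simp
  rw [sum_congr rfl h1, sum_comm]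
  refine (abs_sum_le_sum_abs _ _).trans ((sum_le_sum (g := fun _ => (q : ℤ) * C) fun d hd => ?_).trans
    (by simp [mul_comm]))
  have d0 : 0 < d ^ 2 := by have := (mem_Icc.1 hd).1; positivity
  have e1 : ∑ m ∈ Icc 1 Y, (if d ^ 2 ∣ m then ψ m else 0) =
      ∑ l ∈ range (Y / d ^ 2 + 1), ψ (d ^ 2 * l : ℕ) := by
    rw [← sum_filter, range_eq_Ico, sum_eq_sum_Ico_succ_bot (Nat.succ_pos _), mul_zero,
      Nat.cast_zero, z, zero_add]
    refine (sum_bij (fun l _ => d ^ 2 * l) (fun l hl => ?_)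
      (fun l _ l' _ h => Nat.eq_of_mul_eq_mul_left d0 h) (fun m hm => ?_) fun _ _ => rfl).symm
    · rw [mem_Ico] at hl
      exact mem_filter.2 ⟨mem_Icc.2 ⟨Nat.mul_pos d0 hl.1, (Nat.mul_le_mul_left _
        (Nat.lt_succ_iff.1 hl.2)).trans (Nat.mul_div_le Y _)⟩, Dvd.intro _ rfl⟩
    · obtain ⟨h3, l, rfl⟩ := mem_filter.1 hm
      rw [mem_Icc] at h3
      exact ⟨l, mem_Ico.2 ⟨Nat.pos_of_mul_pos_left h3.1 , Nat.lt_succ_iff.2
        ((Nat.le_div_iff_mul_le d0).2 (mul_comm l _ ▸ h3.2))⟩, rfl⟩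
  rw [← mul_sum, abs_mul, e1]
  refine (mul_le_of_le_one_left (abs_nonneg _) ArithmeticFunction.abs_moebius_le_one).trans ?_
  by_cases c : d.Coprime q
  · refine per_bd (NeZero.pos q) (ψ := fun l => ψ (d ^ 2 * l : ℕ)) (fun n => by simp [mul_add]) ?_
      (fun _ => hC _) _
    have u : IsUnit ((d ^ 2 : ℕ) : ZMod q) := (ZMod.isUnit_iff_coprime _ _).2 (c.pow_left 2)
    simp only [Nat.cast_mul]
    rw [sum_zmod fun x : ZMod q => ψ (((d ^ 2 : ℕ) : ZMod q) * x), ← h0, sum_zmod]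
    exact Equiv.sum_comp u.unit.mulLeft ψ
  · rw [sum_eq_zero fun l _ => hz d l c, abs_zero]
    positivity

/-- the residue condition -/
def Sg (D : ℤ) : Prop := D % 3 = 2 ↔ D % 5 = 1 ∨ D % 5 = 4

instance : DecidablePred Sg := fun D => inferInstanceAs (Decidable (D % 3 = 2 ↔ _))

/-- the weight of mean zero -/
def ph (D : ℤ) : ℤ := if Sg D then 23 else -25

/-- the odd discriminants -/
def p1 (n : ℕ) : ℤ := if n % 4 = 3 ∧ n % 9 ≠ 0 ∧ n % 25 ≠ 0 then ph (-n) else 0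

/-- the even discriminants -/
def p2 (n : ℕ) : ℤ :=
  if (n % 4 = 1 ∨ n % 4 = 2) ∧ n % 9 ≠ 0 ∧ n % 25 ≠ 0 then ph (-(4 * n)) else 0

theorem p1_sum : ∑ k ∈ range 900, p1 k = 0 := by decide +kernel

theorem p2_sum : ∑ k ∈ range 900, p2 k = 0 := by decide +kernel

theorem ph_abs (D : ℤ) : |ph D| ≤ 25 := by unfold ph; split_ifs <;> decide

theorem ph_mod {a b : ℤ} (h : a % 15 = b % 15) : ph a = ph b := by
  have : Sg a ↔ Sg b := by
    unfold Sg
    rw [show a % 3 = b % 3 by omega, show a % 5 = b % 5 by omega]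
  simp only [ph, this]

theorem dv {d : ℕ} (h : ¬ d.Coprime 900) (m : ℕ) :
    d ^ 2 * m % 4 = 0 ∨ d ^ 2 * m % 9 = 0 ∨ d ^ 2 * m % 25 = 0 := by
  rw [show 900 = 2 ^ 2 * (3 ^ 2 * 5 ^ 2) from rfl, Nat.coprime_mul_iff_right,
    Nat.coprime_mul_iff_right, Nat.coprime_pow_right_iff two_pos, Nat.coprime_pow_right_iff two_pos,
    Nat.coprime_pow_right_iff two_pos, d.coprime_comm, d.coprime_comm, d.coprime_comm,
    Nat.prime_two.coprime_iff_not_dvd, Nat.prime_three.coprime_iff_not_dvd,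
    Nat.prime_five.coprime_iff_not_dvd] at h
  have k {p : ℕ} (e : p ∣ d) : d ^ 2 * m % p ^ 2 = 0 :=
    Nat.mod_eq_zero_of_dvd ((pow_dvd_pow_of_dvd e 2).mul_right m)
  by_contra! c
  exact h ⟨fun e => c.1 (k e), fun e => c.2.1 (k e), fun e => c.2.2 (k e)⟩

theorem sq9 {n : ℕ} (h : Squarefree n) : n % 9 ≠ 0 ∧ n % 25 ≠ 0 :=
  ⟨fun e => absurd (h 3 (Nat.dvd_of_mod_eq_zero e)) (by simp),
    fun e => absurd (h 5 (Nat.dvd_of_mod_eq_zero e)) (by simp)⟩

theorem sqn (ψ : ℕ → ℤ) (hp : ∀ n, ψ (n % 900) = ψ n) (h0 : ∑ k ∈ range 900, ψ k = 0)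
    (hC : ∀ x, |ψ x| ≤ 25) (hz : ∀ n, n % 4 = 0 ∨ n % 9 = 0 ∨ n % 25 = 0 → ψ n = 0) (Y : ℕ) :
    |∑ m ∈ Icc 1 Y, if Squarefree m then ψ m else 0| ≤ 22500 * (Nat.sqrt Y : ℤ) := by
  have := sqf (q := 900) (fun x => ψ x.val) (by simpa only [ZMod.val_natCast, hp] using h0)
    (fun _ => hC _) (fun d m h => by rw [ZMod.val_natCast, hp]; exact hz _ (dv h m))
    (hz _ (.inl rfl)) Y
  simp only [ZMod.val_natCast, hp] at this
  exact this

open scoped Classical in
/-- the negative fundamental discriminants -/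
noncomputable def Ng (X : ℕ) : Finset ℤ := (Fam X).filter (· < 0)

theorem mem_Ng {X : ℕ} {D : ℤ} : D ∈ Ng X ↔ -(X : ℤ) ≤ D ∧ D < 0 ∧ IsFund D := by
  simp only [Ng, Fam, mem_filter, mem_Icc]
  exact ⟨fun h => ⟨h.1.1.1, h.2, h.1.2⟩, fun h => ⟨⟨⟨h.1, by omega⟩, h.2.2⟩, h.2.1⟩⟩

theorem sum_Ng (X : ℕ) : ∑ D ∈ Ng X, ph D =
    (∑ m ∈ Icc 1 X, if Squarefree m then p1 m else 0) +
      ∑ m ∈ Icc 1 (X / 4), if Squarefree m then p2 m else 0 := by
  have s {n : ℕ} : Squarefree (-(n : ℤ)) ↔ Squarefree n :=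
    P004.H628.neg_squarefree.trans Int.squarefree_natCast
  rw [← sum_filter_add_sum_filter_not (Ng X) (fun D => D % 4 = 1)]
  congr 1
  · rw [sum_congr rfl (g := fun m : ℕ => if Squarefree m ∧ m % 4 = 3 then ph (-m) else 0)
      fun m _ => by by_cases h : Squarefree m <;> simp [p1, h, sq9], ← sum_filter]
    refine (sum_bij (fun (m : ℕ) _ => -(m : ℤ)) (fun m h => ?_) (fun _ _ _ _ h => by omega)
      (fun D h => ?_) fun _ _ => rfl).symm
    · simp only [mem_filter, mem_Icc, mem_Ng] at h ⊢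
      exact ⟨⟨by omega, by omega, by omega, .inl ⟨by omega, s.2 h.2.1⟩⟩, by omega⟩
    · simp only [mem_filter, mem_Ng] at h
      obtain ⟨⟨a, b, -, c | ⟨d, c, -⟩⟩, e⟩ := h
      · obtain ⟨n, rfl⟩ := Int.exists_eq_neg_ofNat b.le
        exact ⟨n, mem_filter.2 ⟨mem_Icc.2 ⟨by omega, by omega⟩, s.1 c.2, by omega⟩, rfl⟩
      · omega
  · rw [sum_congr rfl (g := fun m : ℕ =>
      if Squarefree m ∧ (m % 4 = 1 ∨ m % 4 = 2) then ph (-(4 * m)) else 0)
      fun m _ => by by_cases h : Squarefree m <;> simp [p2, h, sq9], ← sum_filter]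
    refine (sum_bij (fun (m : ℕ) _ => -(4 * m : ℤ)) (fun m h => ?_) (fun _ _ _ _ h => by omega)
      (fun D h => ?_) fun _ _ => rfl).symm
    · simp only [mem_filter, mem_Icc, mem_Ng] at h ⊢
      exact ⟨⟨by omega, by omega, by omega, .inr ⟨-m, by omega, by omega, s.2 h.2.1⟩⟩, by omega⟩
    · simp only [mem_filter, mem_Ng] at h
      obtain ⟨⟨a, b, -, c | ⟨d, rfl, c, f⟩⟩, e⟩ := h
      · omega
      · obtain ⟨n, rfl⟩ := Int.exists_eq_neg_ofNat (a := d) (by omega)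
        exact ⟨n, mem_filter.2 ⟨mem_Icc.2 ⟨by omega, by omega⟩, s.1 f, by omega⟩, by ring⟩

theorem ph_bd (X : ℕ) : |∑ D ∈ Ng X, ph D| ≤ 45000 * (Nat.sqrt X : ℤ) + 45000 := by
  have a := sqn p1 (fun n => by
      simp only [p1]
      rw [ph_mod (a := -((n % 900 : ℕ) : ℤ)) (b := -n) (by omega)]
      exact if_congr (by omega) rfl rfl) p1_sum
    (fun n => by unfold p1; split_ifs; exacts [ph_abs _, by decide])
    (fun n h => if_neg (by omega)) X
  have b := sqn p2 (fun n => by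
      simp only [p2]
      rw [ph_mod (a := -(4 * ((n % 900 : ℕ) : ℤ))) (b := -(4 * n)) (by omega)]
      exact if_congr (by omega) rfl rfl) p2_sum
    (fun n => by unfold p2; split_ifs; exacts [ph_abs _, by decide])
    (fun n h => if_neg (by omega)) (X / 4)
  have c : (Nat.sqrt (X / 4) : ℤ) ≤ Nat.sqrt X := by
    exact_mod_cast Nat.sqrt_le_sqrt (Nat.div_le_self _ _)
  rw [sum_Ng]
  linarith [abs_add_le (∑ m ∈ Icc 1 X, if Squarefree m then p1 m else 0)
    (∑ m ∈ Icc 1 (X / 4), if Squarefree m then p2 m else 0)]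

theorem fam_ne : ∀ᶠ X in atTop, ((Fam X).card : ℝ) ≠ 0 := by
  obtain ⟨c, c0, h⟩ := P004.pfCount
  filter_upwards [eventually_ge_atTop 3] with X hX
  have : (3 : ℝ) ≤ X := by exact_mod_cast hX
  exact (lt_of_lt_of_le (by positivity) (h X hX)).ne'

theorem small {u : ℕ → ℤ} (h : ∀ X, |u X| ≤ C * (Nat.sqrt X : ℤ) + C) :
    Tendsto (fun X => (u X : ℝ) / (Fam X).card) atTop (𝓝 0) := by
  obtain ⟨c, c0, k⟩ := P004.pfCount
  have C0 : (0 : ℝ) ≤ C := by
    have := (abs_nonneg _).trans (h 0)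
    simp only [Nat.sqrt_zero, Nat.cast_zero, mul_zero, zero_add] at this
    exact_mod_cast this
  have l : Tendsto (fun X : ℕ => 2 * C / c * (√(X : ℝ))⁻¹) atTop (𝓝 0) := by
    simpa using (tendsto_inv_atTop_zero.comp (Real.tendsto_sqrt_atTop.comp
      tendsto_natCast_atTop_atTop)).const_mul (2 * C / c)
  refine squeeze_zero_norm' ?_ l
  filter_upwards [eventually_ge_atTop 3] with X hX
  have x : (3 : ℝ) ≤ X := by exact_mod_cast hX
  have s1 : (1 : ℝ) ≤ √(X : ℝ) := Real.one_le_sqrt.2 (by linarith)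
  have e : |(u X : ℝ)| ≤ C * (Nat.sqrt X : ℝ) + C := by exact_mod_cast h X
  have f : (Nat.sqrt X : ℝ) ≤ √(X : ℝ) := Real.nat_sqrt_le_real_sqrt
  have p : 0 < c * X := by positivity
  rw [norm_div, Real.norm_natCast, Real.norm_eq_abs]
  calc _ ≤ 2 * C * √(X : ℝ) / (c * X) :=
        div_le_div₀ (by positivity) (by nlinarith) p (k X hX)
    _ = _ := by
        nth_rewrite 2 [← Real.mul_self_sqrt (x := X) (by positivity)]
        field_simp

theorem ng_half : Tendsto (fun X => ((Ng X).card : ℝ) / (Fam X).card) atTop (𝓝 (1 / 2)) := by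
  classical
  obtain ⟨C, h⟩ := P004.QN.sum_Fam_sign (κ := Int.sign) (P := 2) dvd_rfl two_ne_zero
    fun d _ _ => ⟨d.sign, 1, by rcases Int.sign_trichotomy d with e | e | e <;> simp [e],
      one_ne_zero, fun n _ _ _ => by simp⟩
  have e (X : ℕ) : ∑ D ∈ Fam X, (P004.QN.sfk D).sign = (Fam X).card - 2 * (Ng X).card := by
    rw [sum_congr rfl (g := fun D => 1 - 2 * if D < 0 then 1 else 0) fun D k => ?_,
      sum_sub_distrib, ← mul_sum, sum_boole, card_eq_sum_ones]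
    · simp [Ng]
    · have : D ≠ 0 := by
        rintro rfl
        obtain ⟨-, c | ⟨d, c, e, -⟩⟩ := (mem_filter.1 k).2 <;> omega
      unfold P004.QN.sfk
      split_ifs
      · exact Int.sign_eq_neg_one_of_neg (by omega)
      · exact Int.sign_eq_one_of_pos (by omega)
      · exact Int.sign_eq_neg_one_of_neg (by omega)
      · exact Int.sign_eq_one_of_pos (by omega)
  have := ((small h).const_sub 1).div_const 2
  rw [sub_zero] at this
  refine this.congr' ?_
  filter_upwards [fam_ne] with X k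
  rw [e]
  push_cast
  field_simp
  ring

/-- from all discriminants to the negative ones -/
theorem to_ng {u : ℕ → ℝ} {l : ℝ} (h : Tendsto (fun X => u X / (Fam X).card) atTop (𝓝 l)) :
    Tendsto (fun X => u X / (Ng X).card) atTop (𝓝 (2 * l)) := by
  have := h.div ng_half (by norm_num)
  rw [show l / (1 / 2) = 2 * l by ring] at this
  refine this.congr' ?_
  filter_upwards [fam_ne] with X k
  exact div_div_div_cancel_right₀ k _ _

/-- **the density of the residue condition** -/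
theorem sg_den : Tendsto (fun X => (((Ng X).filter Sg).card : ℝ) / (Ng X).card) atTop
    (𝓝 (25 / 48)) := by
  have e (X : ℕ) : ∑ D ∈ Ng X, ph D = 48 * ((Ng X).filter Sg).card - 25 * (Ng X).card := by
    rw [sum_congr rfl (g := fun D => 48 * (if Sg D then 1 else 0) - 25) fun D _ => by
      unfold ph; split_ifs <;> rfl, sum_sub_distrib, ← mul_sum, sum_boole]
    simp [mul_comm]
  have := ((small ph_bd).add (ng_half.const_mul 25)).div_const 48
  rw [show (25 / 48 : ℝ) = 2 * ((0 + 25 * (1 / 2)) / 48) by norm_num]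
  refine to_ng (this.congr fun X => ?_)
  rw [e]
  push_cast
  ring

end Vale.Agent.P017D
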