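import Vale.Agent.P017D.Defs
import Vale.Agent.P017D.Sq
import Vale.Agent.P017.H185.Main
import Vale.Agent.P022.H724.Bas

/-! # P017D: fields and discriminants -/

set_option autoImplicit false

open NumberField Filter Topology Polynomial

namespace Vale.Agent.P017D

open P017.H185 P017.H185.QF

section QF

variable {K : Type} [Field K] [NumberField K] {d : ℕ} (q : QF K d)

theorem co (z : 𝓞 K) : ∃ a b : ℤ, 2 * z = a + b * q.t ∧ (4 : ℤ) ∣ a ^ 2 + d * b ^ 2 := by
  obtain ⟨a, b, e, f⟩ := q.int_coords (isInt z)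
  exact ⟨a, b, ext' (by simpa [map_ofNat, q.coe_t] using e), f⟩

theorem ind {a b : ℤ} (h : (a : 𝓞 K) + b * q.t = 0) : a = 0 ∧ b = 0 := by
  have := q.uniq (u := a) (v := b) (by simpa [q.coe_t] using congrArg (algebraMap (𝓞 K) K) h)
  exact_mod_cast this

include q in
theorem disc_eq : d % 4 = 3 ∧ discr K = -d * 1 ^ 2 ∨
    (d % 4 = 1 ∨ d % 4 = 2) ∧ discr K = -d * 2 ^ 2 := by
  have t := q.t_sq
  have k (a b : ℤ) : (4 : ℤ) ∣ a ^ 2 + d * b ^ 2 ↔ (a : ZMod 4) ^ 2 + (d % 4 : ℕ) * b ^ 2 = 0 := by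
    rw [show (4 : ℤ) = (4 : ℕ) from rfl, ← ZMod.intCast_zmod_eq_zero_iff_dvd]
    simp
  have m (a : ℤ) : 2 * (a : ZMod 4) = 0 → 2 ∣ a := fun e => by
    have := (ZMod.intCast_zmod_eq_zero_iff_dvd (2 * a) 4).1 (by simpa using e)
    omega
  by_cases h : d % 4 = 3
  · obtain ⟨y, hy, e⟩ := q.of_coords (a := 1) (b := 1) (by omega)
    obtain ⟨y, rfl⟩ := exists_of_isInt hy
    replace e : 2 * y = 1 + q.t := ext' (by simpa [map_ofNat, q.coe_t] using e)
    obtain ⟨c, hc⟩ : ∃ c : ℤ, (d : ℤ) = 4 * c - 1 := ⟨(d + 1) / 4, by omega⟩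
    have hc' : (d : 𝓞 K) = 4 * c - 1 := by exact_mod_cast congrArg (Int.cast : ℤ → 𝓞 K) hc
    refine .inl ⟨h, (P022.H724.QB.discr_eq ⟨y, -c, 1, mul_left_cancel₀ (a := 4) (by norm_num) (by
      push_cast
      linear_combination (2 * y - 1 + q.t) * e + t - hc'), fun z => ?_, fun a b f => ?_⟩).trans
        (by simp only [hc]; ring)⟩
    · obtain ⟨a, b, f, g⟩ := co q z
      rw [k, h] at g
      obtain ⟨j, l⟩ := m (a - b) (by
        push_cast
        generalize (a : ZMod 4) = x, (b : ZMod 4) = y at g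
        revert x y
        decide)
      refine ⟨j, b, mul_left_cancel₀ two_ne_zero ?_⟩
      rw [f, show a = b + 2 * j by omega]
      push_cast
      linear_combination -b * e
    · have := ind q (a := 2 * a + b) (b := b) (by push_cast; linear_combination 2 * f - b * e)
      omega
  · have h0 : d % 4 ≠ 0 := fun e => absurd (q.hd 2 (Nat.dvd_of_mod_eq_zero e)) (by simp)
    have h1 : d % 4 = 1 ∨ d % 4 = 2 := by omega
    refine .inr ⟨h1, (P022.H724.QB.discr_eq ⟨q.t, -d, 0, by push_cast; linear_combination t,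
      fun z => ?_, fun a b f => ind q f⟩).trans (by simp only []; ring)⟩
    obtain ⟨a, b, f, g⟩ := co q z
    rw [k] at g
    have : 2 * (a : ZMod 4) = 0 ∧ 2 * (b : ZMod 4) = 0 := by
      generalize (a : ZMod 4) = x, (b : ZMod 4) = y at g
      rcases h1 with e | e <;> rw [e] at g <;> revert x y <;> decide
    obtain ⟨i, rfl⟩ := m a this.1
    obtain ⟨j, rfl⟩ := m b this.2
    exact ⟨i, j, mul_left_cancel₀ two_ne_zero (by rw [f]; push_cast; ring)⟩

include q in
theorem inert_iff : (Ideal.span {(3 : 𝓞 K)}).IsPrime ↔ d % 3 = 1 := by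
  refine ⟨fun h => by_contra fun c => ?_, fun h => by_contra fun c =>
    q.not_inert c (by omega) (by rw [← ZMod.natCast_mod, h]; rfl)⟩
  have n (a : ℤ) (s : ℤ) (hs : s = 1 ∨ s = -1) : (a : 𝓞 K) + s * q.t ∉ Ideal.span {(3 : 𝓞 K)} :=
    fun m => by
      obtain ⟨z, e⟩ := Ideal.mem_span_singleton.1 m
      obtain ⟨u, v, f, -⟩ := co q z
      have := ind q (a := 2 * a - 3 * u) (b := 2 * s - 3 * v)
        (by push_cast; linear_combination 2 * e + 3 * f)
      omega
  obtain ⟨a, j, e⟩ : ∃ a j : ℤ, a ^ 2 + d = 3 * j := by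
    rcases (by omega : d % 3 = 0 ∨ d % 3 = 2) with e | e
    exacts [⟨0, d / 3, by omega⟩, ⟨1, (d + 1) / 3, by omega⟩]
  have e' : (a : 𝓞 K) ^ 2 + d = 3 * j := by exact_mod_cast congrArg (Int.cast : ℤ → 𝓞 K) e
  exact (h.mem_or_mem (Ideal.mem_span_singleton.2 ⟨j, by
    push_cast; linear_combination e' - q.t_sq⟩)).elim (n a 1 (.inl rfl)) (n a (-1) (.inr rfl))

include q in
theorem split_iff : (∃ P Q : Ideal (𝓞 K), P.IsPrime ∧ Q.IsPrime ∧ 5 ∈ P ∧ 5 ∈ Q ∧ P ≠ Q) ↔
    d % 5 = 1 ∨ d % 5 = 4 := by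
  refine ⟨fun ⟨P, Q, a, b, c, e, f⟩ => by_contra fun n => f ?_, fun h => by_contra fun c =>
    q.not_split (fun P Q a b e f => by_contra fun g => c ⟨P, Q, a, b, e, f, g⟩) (by omega) (by
      rw [← ZMod.natCast_mod]
      rcases h with h | h <;> rw [h]
      exacts [⟨2, rfl⟩, ⟨1, rfl⟩])⟩
  have t := q.t_sq
  have u (P : Ideal (𝓞 K)) (a : P.IsPrime) (c : 5 ∈ P) {n : ℤ} (h : (n : 𝓞 K) ∈ P) : 5 ∣ n :=
    by_contra fun k => by
      obtain ⟨x, y, e⟩ := (Int.prime_iff_natAbs_prime.2 (by norm_num) :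
        Prime (5 : ℤ)).irreducible.coprime_iff_not_dvd.2 k
      have e' : (x : 𝓞 K) * 5 + y * n = 1 := by exact_mod_cast congrArg (Int.cast : ℤ → 𝓞 K) e
      exact a.ne_top ((Ideal.eq_top_iff_one _).2
        (e' ▸ P.add_mem (P.mul_mem_left _ c) (P.mul_mem_left _ h)))
  have w (P Q : Ideal (𝓞 K)) (a : P.IsPrime) (b : Q.IsPrime) (c : 5 ∈ P) (e : 5 ∈ Q) : P ≤ Q :=
    fun z hz => by
      obtain ⟨x, y, f, -⟩ := co q z
      have g := u P a c (n := x ^ 2 + d * y ^ 2) (by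
        convert P.mul_mem_right (2 * (x - y * q.t)) hz using 1
        push_cast
        linear_combination -(x - y * q.t) * f + y ^ 2 * t)
      refine (b.mem_or_mem (x := 2) (f ▸ ?_)).resolve_left fun k =>
        absurd (u Q b e (n := 2) (by exact_mod_cast k)) (by decide)
      have o : (x : ZMod 5) ^ 2 + (d % 5 : ℕ) * y ^ 2 = 0 := by
        simpa using (ZMod.intCast_zmod_eq_zero_iff_dvd _ 5).2 g
      have v {i : ℤ} (h : (i : ZMod 5) = 0) : (i : 𝓞 K) ∈ Q := by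
        obtain ⟨j, rfl⟩ := (ZMod.intCast_zmod_eq_zero_iff_dvd _ 5).1 h
        push_cast
        exact Q.mul_mem_right _ e
      rcases (by omega : d % 5 = 0 ∨ d % 5 = 2 ∨ d % 5 = 3) with l | l | l <;> rw [l] at o
      · have : (x : ZMod 5) = 0 := by
          generalize (x : ZMod 5) = x, (y : ZMod 5) = y at o
          revert x y
          decide
        refine Q.add_mem (v this) (Q.mul_mem_left _ (b.mem_of_pow_mem 2 ?_))
        rw [t]
        simpa using v (i := -d) (by push_cast; rw [← ZMod.natCast_mod, l]; rfl)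
      all_goals
        have : (x : ZMod 5) = 0 ∧ (y : ZMod 5) = 0 := by
          generalize (x : ZMod 5) = x, (y : ZMod 5) = y at o
          revert x y
          decide
        exact Q.add_mem (v this.1) (Q.mul_mem_right _ (v this.2))
  exact (w P Q a b c e).antisymm (w Q P b a e c)

include q in
theorem d_eq {e : ℕ} (he : Squarefree e) {z : K} (h : z ^ 2 = -e) : d = e := by
  obtain ⟨u, v, rfl⟩ := q.hspan z
  obtain ⟨a, b⟩ := q.uniq (u := u ^ 2 - d * v ^ 2 + e) (v := 2 * u * v) (by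
    push_cast; linear_combination h - v ^ 2 * q.hθ)
  have e0 : (0 : ℚ) < e := by exact_mod_cast Nat.pos_of_ne_zero he.ne_zero
  have v0 : v ≠ 0 := by rintro rfl; nlinarith
  obtain rfl : u = 0 := by simpa [v0] using b
  obtain ⟨n, rfl⟩ := int_of_sq_mul (r := v) (n := e) q.hd (by push_cast; linarith)
  have k : (e : ℤ) = n * n * d := by exact_mod_cast (by linarith : (e : ℚ) = n * n * d)
  rcases Int.isUnit_iff.1 (Int.squarefree_natCast.2 he n ⟨d, k⟩) with rfl | rfl <;> omega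

end QF

theorem IQ.ex (K : IQ) : ∃ d, Nonempty (@QF K.F _ K.nf d) :=
  have := K.nf
  have := K.2.1
  have := K.2.2
  exists_QF K.F

theorem disc_inj : Function.Injective IQ.disc := by
  have w (K L : IQ) (h : K.disc = L.disc) : K.F ≤ L.F := fun z hz => by
    have := K.nf
    have := L.nf
    obtain ⟨d, ⟨q⟩⟩ := K.ex
    obtain ⟨e, ⟨r⟩⟩ := L.ex
    obtain rfl : d = e := by
      have := disc_eq q
      have := disc_eq r
      unfold IQ.disc at h
      omega
    obtain ⟨u, v, f⟩ := q.hspan ⟨z, hz⟩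
    have a : (q.θ : ℂ) ^ 2 = (r.θ : ℂ) ^ 2 := by
      have a := congrArg Subtype.val q.hθ
      have b := congrArg Subtype.val r.hθ
      simpa using a.trans b.symm
    obtain rfl : z = u + v * (q.θ : ℂ) := by simpa using congrArg Subtype.val f
    refine add_mem (SubfieldClass.ratCast_mem _ u) (mul_mem (SubfieldClass.ratCast_mem _ v) ?_)
    rcases sq_eq_sq_iff_eq_or_eq_neg.1 a with b | b <;> rw [b]
    exacts [r.θ.2, neg_mem r.θ.2]
  exact fun K L h => Subtype.ext ((w K L h).antisymm (w L K h.symm))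

open IntermediateField in
theorem ex_fld {d : ℕ} (h : Squarefree d) : ∃ K : IQ, Nonempty (@QF K.F _ K.nf d) := by
  have d0 : (0 : ℝ) < d := by exact_mod_cast Nat.pos_of_ne_zero h.ne_zero
  obtain ⟨θ, t⟩ : ∃ θ : ℂ, θ ^ 2 = -d := IsAlgClosed.exists_pow_nat_eq _ two_pos
  have m : (X ^ 2 + C (d : ℚ)).Monic := monic_X_pow_add_C _ two_ne_zero
  have z : aeval θ (X ^ 2 + C (d : ℚ)) = 0 := by simp [t]
  have i : IsIntegral ℚ θ := ⟨_, m, z⟩
  have g : (AdjoinSimple.gen ℚ θ) ^ 2 = -d := Subtype.ext (by simpa using t)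
  let K : IQ := ⟨ℚ⟮θ⟯, { finrank_eq_two' := ?_ }, ⟨fun v => ?_⟩⟩
  · have := K.nf
    obtain ⟨e, ⟨q⟩⟩ := K.ex
    obtain rfl := d_eq q h g
    exact ⟨K, ⟨q⟩⟩
  · rw [adjoin.finrank i]
    refine le_antisymm ?_ ((minpoly.two_le_natDegree_iff i).2 ?_)
    · exact (natDegree_le_natDegree (minpoly.min ℚ θ m z)).trans natDegree_X_pow_add_C.le
    · rintro ⟨r, rfl⟩
      have : (r : ℝ) ^ 2 = -d := by
        apply Complex.ofReal_injective
        simpa using t
      nlinarith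
  · refine InfinitePlace.not_isReal_iff_isComplex.1 fun c => ?_
    have := congrArg (InfinitePlace.embedding_of_isReal c) g
    rw [map_pow, map_neg, map_natCast] at this
    nlinarith

theorem mem_iff {X : ℕ} {D : ℤ} : D ∈ Ng X ↔ ∃ K ∈ Box X, K.disc = D := by
  have s {n : ℕ} : Squarefree (-(n : ℤ)) ↔ Squarefree n :=
    P004.H628.neg_squarefree.trans Int.squarefree_natCast
  rw [mem_Ng]
  constructor
  · rintro ⟨a, b, -, c | ⟨e, rfl, c, f⟩⟩
    · obtain ⟨n, rfl⟩ := Int.exists_eq_neg_ofNat b.le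
      obtain ⟨K, ⟨q⟩⟩ := ex_fld (s.1 c.2)
      have := K.nf
      have k : K.disc = -n := by have := disc_eq q; unfold IQ.disc; omega
      exact ⟨K, abs_le.2 ⟨k ▸ a, by omega⟩, k⟩
    · obtain ⟨n, rfl⟩ := Int.exists_eq_neg_ofNat (a := e) (by omega)
      obtain ⟨K, ⟨q⟩⟩ := ex_fld (s.1 f)
      have := K.nf
      have k : K.disc = 4 * -n := by have := disc_eq q; unfold IQ.disc; omega
      exact ⟨K, abs_le.2 ⟨k ▸ a, by omega⟩, k⟩
  · rintro ⟨K, b, rfl⟩
    have := K.nf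
    obtain ⟨d, ⟨q⟩⟩ := K.ex
    have := q.d_pos
    refine ⟨(abs_le.1 b).1, ?_⟩
    unfold IQ.disc
    rcases disc_eq q with ⟨c, e⟩ | ⟨c, e⟩ <;> rw [e]
    · exact ⟨by omega, by omega, .inl ⟨by omega, by simpa using s.2 q.hd⟩⟩
    · exact ⟨by omega, by omega, .inr ⟨-d, by ring, by omega, s.2 q.hd⟩⟩

theorem sg_iff (K : IQ) : (Inert3 K.F ↔ Split5 K.F) ↔ Sg K.disc := by
  have := K.nf
  obtain ⟨d, ⟨q⟩⟩ := K.ex
  have := disc_eq q
  unfold Inert3 Split5 Sg IQ.disc
  rw [inert_iff q, split_iff q]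
  omega

open scoped Classical in
theorem card_eq (P : IQ → Prop) (X : ℕ) : {K ∈ Box X | P K}.ncard =
    ((Ng X).filter fun D => ∃ K, K.disc = D ∧ P K).card := by
  rw [← Set.ncard_image_of_injective _ disc_inj, ← Set.ncard_coe_finset]
  congr 1
  ext D
  simp only [Set.mem_image, Set.mem_ofPred_eq, Finset.coe_filter, mem_iff]
  exact ⟨fun ⟨K, a, b⟩ => ⟨⟨K, a.1, b⟩, K, b, a.2⟩, fun ⟨⟨K, a, b⟩, L, c, e⟩ =>
    ⟨K, ⟨a, disc_inj (c.trans b.symm) ▸ e⟩, b⟩⟩

theorem box_img (X : ℕ) : IQ.disc '' Box X = Ng X := Set.ext fun _ => mem_iff.symm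

theorem box_fin (X : ℕ) : (Box X).Finite :=
  .of_finite_image (box_img X ▸ Finset.finite_toSet _) disc_inj.injOn

theorem box_card (X : ℕ) : (Box X).ncard = (Ng X).card := by
  rw [← Set.ncard_image_of_injective _ disc_inj, box_img, Set.ncard_coe_finset]

end Vale.Agent.P017D
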